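import Vale.Agent.P154.AffAssembly
import Vale.Agent.P154.PoissonMono
import Vale.Agent.P154.NegEnd.TanAssembly
import Vale.Agent.P154.NegTrans.GeoMoment

/-!
P154: affinity certificates that hold where the first defect after one edge is small, and their
use on Poisson trees after a transient.
-/

namespace Vale.Agent.P154.NegLocal

open Finset Filter Topology

variable {q N : ℕ}

/-- An affinity certificate on the laws with `d * defectEdge β ≤ m0`. -/
def AffCertBelow (q : ℕ) (lam d : ℝ) (G : ℝ → ℝ) (β : Fin q → ℝ) (m0 : ℝ) : Prop :=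
  ∃ (N : ℕ) (α : Fin N → Fin q → ℝ) (Φ : (Fin N → ℝ) → ℝ) (ε : ℝ), 0 < ε ∧ Continuous Φ ∧
    (∀ j i, 0 ≤ α j i) ∧ (∀ j, ∑ i, α j i = 1) ∧
    ∀ A : Law q, d * A.defectEdge β lam ≤ m0 →
      Φ (fun j => 1 - G (1 - A.defectEdge (α j) lam)) ≤
        Φ (fun j => A.defect (α j)) - ε * A.S ^ 2

/-- Pointwise certificate with tangents at `r j * m`, for `m` in `[0, m0]` only. -/
def TanCertBelow [NeZero N] (lam d κ A m0 ε : ℝ) (c r : Fin N → ℝ) (α : Fin N → Fin q → ℝ)
    (L L1 U U1 μ : ℝ → ℝ) : Prop :=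
  0 < ε ∧ (∀ j i, 0 ≤ α j i) ∧ (∀ j, ∑ i, α j i = 1) ∧ (∀ j, 0 ≤ r j ∧ r j ≤ 1) ∧
    ∀ u, Dev u →
      (∀ j, NegEnd.edge lam d (α j) u ≤ A) ∧
      ∀ m, 0 ≤ m → m ≤ m0 → m ≤ A →
        ε * ss u ^ 2 ≤ ∑ j, c j * (NegEnd.vert (α j) u - NegEnd.edge lam d (α j) u) +
          ∑ j, NegEnd.tanTerm κ L L1 U U1 (c j) (r j * m)
            (NegEnd.edge lam d (α j) u - r j * NegEnd.edge lam d (α 0) u) +
          μ m * (NegEnd.edge lam d (α 0) u - m)

open PointAssembly in
/-- A tangent certificate on `[0, m0]` is an affinity certificate on the small laws. -/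
theorem affCertBelow_of_tanCertBelow [NeZero N] (hq : 2 ≤ q) (lam : ℝ)
    (hl : -(1 / ((q : ℝ) - 1)) ≤ lam) (hl' : lam ≤ 1) {G : ℝ → ℝ} {d κ A m0 ε : ℝ}
    {c r : Fin N → ℝ} {α : Fin N → Fin q → ℝ} {L L1 U U1 μ : ℝ → ℝ} (hd : 0 < d) (hκ : 0 ≤ κ)
    (hB : NegEnd.TanBd G d κ A L L1 U U1)
    (hP : TanCertBelow lam d κ A m0 ε c r α L L1 U U1 μ) :
    AffCertBelow q lam d G (α 0) m0 := by
  obtain ⟨hε, hα0, hα1, hr, hpt⟩ := hP
  refine ⟨N, α, fun x => ∑ j, c j * x j, ε, hε, by fun_prop, hα0, hα1, fun Λ hsmall => ?_⟩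
  have hE : ∀ j, Λ.E (NegEnd.edge lam d (α j)) = d * Λ.defectEdge (α j) lam := fun j => by
    rw [show NegEnd.edge lam d (α j) = pav fun u => d * (1 - aff (α j) fun i => lam * u i) from rfl,
      E_pav, Law.defectEdge, Λ.smul_fun, Λ.sub_fun, Λ.const]
  have hV : ∀ j, Λ.E (NegEnd.vert (α j)) = Λ.defect (α j) := fun j => by
    rw [show NegEnd.vert (α j) = pav fun u => 1 - aff (α j) u from rfl, E_pav, Law.defect,
      Λ.sub_fun, Λ.const]
  set e : Fin N → ℝ := fun j => Λ.E (NegEnd.edge lam d (α j)) with he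
  have h01 : ∀ j, 0 ≤ e j ∧ e j ≤ d := fun j => by
    simp only [he, hE, Law.defectEdge, Law.E_scale_aff hq lam hl hl']
    have h0 := (Λ.scale hq lam hl hl').E_aff_nonneg (α j)
    have h1 := (Λ.scale hq lam hl hl').E_aff_le_one (hα0 j) (hα1 j)
    exact ⟨mul_nonneg hd.le (by linarith), mul_le_of_le_one_right hd.le (by linarith)⟩
  have hA : ∀ j, e j ≤ A := fun j =>
    le_of_le_of_eq (Λ.mono _ _ fun u hu => (hpt u hu).1 j) (Λ.const A)
  obtain ⟨m, hm⟩ : ∃ m, m = e 0 := ⟨_, rfl⟩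
  have hm0 : 0 ≤ m := hm ▸ (h01 0).1
  have hmA : m ≤ A := hm ▸ hA 0
  have hmS : m ≤ m0 := by
    rw [hm]
    show Λ.E (NegEnd.edge lam d (α 0)) ≤ m0
    rw [hE]
    exact hsmall
  have hterm : ∀ j,
      Λ.E (fun u => NegEnd.tanTerm κ L L1 U U1 (c j) (r j * m)
        (NegEnd.edge lam d (α j) u - r j * NegEnd.edge lam d (α 0) u)) ≤
      c j * (G (1 - e j / d) - 1 + e j) := fun j => by
    have hz0 : 0 ≤ r j * m := mul_nonneg (hr j).1 hm0
    have hzA : r j * m ≤ A := (mul_le_of_le_one_left hm0 (hr j).2).trans hmA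
    obtain ⟨hlo, hhi⟩ := hB _ hz0 hzA (e j) (h01 j).1 (hA j) (h01 j).2
    rw [hm] at hlo hhi hz0 hzA ⊢
    by_cases hc : 0 ≤ c j
    · simp only [NegEnd.tanTerm, if_pos hc, Λ.smul_fun, Λ.add_fun, Λ.sub_fun, Λ.const]
      exact mul_le_mul_of_nonneg_left hlo hc
    · simp only [NegEnd.tanTerm, if_neg hc, Λ.smul_fun, Λ.add_fun, Λ.sub_fun, Λ.const]
      have hsq := E_sq Λ (fun u => NegEnd.edge lam d (α j) u - r j * NegEnd.edge lam d (α 0) u)
      simp only [Λ.sub_fun, Λ.smul_fun] at hsq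
      exact mul_le_mul_of_nonpos_left
        (hhi.trans (by nlinarith [mul_le_mul_of_nonneg_left hsq (show (0:ℝ) ≤ κ / 2 by linarith)]))
        (le_of_lt (not_le.1 hc))
  have h := Λ.mono _ _ fun u hu => (hpt u hu).2 m hm0 hmS hmA
  simp only [Λ.add_fun, E_fsum, Λ.sub_fun, Λ.smul_fun, Λ.const, hV] at h
  have hS := mul_le_mul_of_nonneg_left (E_sq Λ ss) hε.le
  have hG1 : ∀ j, 1 - G (1 - Λ.defectEdge (α j) lam) = e j - (G (1 - e j / d) - 1 + e j) :=
    fun j => by simp only [he, hE, mul_div_cancel_left₀ _ hd.ne']; ring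
  have hsum := sum_le_sum fun j (_ : j ∈ Finset.univ) => hterm j
  simp only [hG1, Law.S, mul_sub, sum_sub_distrib] at hS h hsum ⊢
  simp only [he] at hm hsum ⊢
  simp only [← hm, sub_self, add_zero] at h
  linarith

/-- The certificate passes to countable mixtures whose mean defect is small. -/
theorem affCertBelow_mixture (hq : 2 ≤ q) {lam d m0 : ℝ} (hl : -(1 / ((q : ℝ) - 1)) ≤ lam)
    (hl' : lam ≤ 1) (hd : 0 ≤ d) {β : Fin q → ℝ} (hβ0 : ∀ i, 0 ≤ β i) (hβ1 : ∑ i, β i = 1)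
    {ι : Type*} {N : ℕ} {α : Fin N → Fin q → ℝ} {Φ : (Fin N → ℝ) → ℝ} {G : ℝ → ℝ} {ε : ℝ}
    (hΦ : Continuous Φ) (hG : Continuous G)
    (h : ∀ A : Law q, d * A.defectEdge β lam ≤ m0 →
      Φ (fun j => 1 - G (1 - A.defectEdge (α j) lam)) ≤
        Φ (fun j => A.defect (α j)) - ε * A.S ^ 2)
    {w : ι → ℝ} (hw : ∀ i, 0 ≤ w i) (hw1 : HasSum w 1) (A : ι → Law q) {e e' : Fin N → ℝ}
    {S t : ℝ}
    (he : ∀ j, HasSum (fun i => w i * (A i).E (aff (α j))) (e j))
    (he' : ∀ j, HasSum (fun i => w i * (A i).E (fun u => aff (α j) fun k => lam * u k)) (e' j))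
    (hS : HasSum (fun i => w i * (A i).S) S)
    (ht : HasSum (fun i => w i * (A i).defectEdge β lam) t) (htm : d * t ≤ m0) :
    Φ (fun j => 1 - G (e' j)) ≤ Φ (fun j => 1 - e j) - ε * S ^ 2 := by
  have hs : ∀ F : Finset ι, ∑ i ∈ F, w i ≤ 1 := fun F =>
    sum_le_hasSum F (fun i _ => hw i) hw1
  have hnn : ∀ i, 0 ≤ (A i).defectEdge β lam := fun i => by
    rw [Law.defectEdge, Law.E_scale_aff hq lam hl hl', sub_nonneg]
    exact Law.E_aff_le_one _ hβ0 hβ1
  have hsmall : ∀ F : Finset ι, d * (Law.mix F w A hw (hs F)).defectEdge β lam ≤ m0 := by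
    intro F
    refine le_trans (mul_le_mul_of_nonneg_left ?_ hd) htm
    have hunit : (Law.unit q).E (fun u => aff β fun i => lam * u i) = 1 := by
      simp [Law.unit, aff]
    rw [Law.defectEdge, Law.mix_E, hunit, mul_one]
    have hle := sum_le_hasSum F (fun i _ => mul_nonneg (hw i) (hnn i)) ht
    simp only [Law.defectEdge, mul_sub, mul_one, sum_sub_distrib] at hle
    linarith
  have key : ∀ (g : (Fin q → ℝ) → ℝ) (L : ℝ), HasSum (fun i => w i * (A i).E g) L →
      Tendsto (fun F => (Law.mix F w A hw (hs F)).E g) atTop (𝓝 L) := by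
    intro g L hL
    have h1 : Tendsto (fun F : Finset ι => ∑ i ∈ F, w i * (A i).E g) atTop (𝓝 L) := hL
    have h2 : Tendsto (fun F : Finset ι => ∑ i ∈ F, w i) atTop (𝓝 1) := hw1
    have h3 := h1.add ((h2.const_sub 1).mul_const ((Law.unit q).E g))
    rw [sub_self, zero_mul, add_zero] at h3
    exact h3.congr fun F => (Law.mix_E F w A hw (hs F) g).symm
  have hleft : Tendsto (fun F => Φ (fun j => 1 - G (1 -
      (Law.mix F w A hw (hs F)).defectEdge (α j) lam))) atTop (𝓝 (Φ fun j => 1 - G (e' j))) := by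
    refine (hΦ.tendsto _).comp (tendsto_pi_nhds.2 fun j => ?_)
    simp only [Law.defectEdge, sub_sub_cancel]
    exact ((hG.tendsto _).comp (key _ _ (he' j))).const_sub 1
  have hright : Tendsto (fun F => Φ (fun j => (Law.mix F w A hw (hs F)).defect (α j)) -
      ε * (Law.mix F w A hw (hs F)).S ^ 2) atTop (𝓝 (Φ (fun j => 1 - e j) - ε * S ^ 2)) :=
    ((hΦ.tendsto _).comp (tendsto_pi_nhds.2 fun j => (key _ _ (he j)).const_sub 1)).sub
      (((key ss S hS).pow 2).const_mul ε)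
  exact le_of_tendsto_of_tendsto' hleft hright fun F => h _ (hsmall F)

/-- A certificate on small laws and a transient bound give nonreconstruction on Poisson trees. -/
theorem nonReconstructs_poisson_of_below (hq : 2 ≤ q) (lam : ℝ)
    (hl : -(1 / ((q : ℝ) - 1)) ≤ lam) (hl' : lam ≤ 1) {d m0 : ℝ} (hd : 0 ≤ d) {β : Fin q → ℝ}
    (hβ0 : ∀ i, 0 ≤ β i) (hβ1 : ∑ i, β i = 1)
    (hcert : AffCertBelow q lam d (genPoisson d) β m0) {n₀ : ℕ}
    (hsmall : ∀ n, n₀ ≤ n →
      d * ∑' T : Tree n, gwWeight d n T * (treeLaw hq lam hl hl' n T).defectEdge β lam ≤ m0) :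
    NonReconstructs (aPoisson q lam d) := by
  obtain ⟨N, α, Φ, ε, hε, hΦ, h0, h1, h⟩ := hcert
  set A : (n : ℕ) → Tree n → Law q := fun n T => treeLaw hq lam hl hl' n T with hA
  set e : ℕ → Fin N → ℝ := fun n j => ∑' T, gwWeight d n T * (A n T).E (aff (α j)) with he
  set e' : ℕ → Fin N → ℝ := fun n j =>
    ∑' T, gwWeight d n T * (A n T).E (fun u => aff (α j) fun k => lam * u k) with he'
  set S : ℕ → ℝ := fun n => ∑' T, gwWeight d n T * (A n T).S with hS
  have hE : ∀ n j, HasSum (fun T => gwWeight d n T * (A n T).E (aff (α j))) (e n j) := fun n j =>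
    (GW.summable_of_bounded hd n _ 1 fun T => by
      rw [abs_of_nonneg (Law.E_aff_nonneg _ _)]
      exact Law.E_aff_le_one _ (h0 j) (h1 j)).hasSum
  have hE' : ∀ n j, HasSum (fun T => gwWeight d n T *
      (A n T).E (fun u => aff (α j) fun k => lam * u k)) (e' n j) := fun n j =>
    (GW.summable_of_bounded hd n _ 1 fun T => by
      rw [Law.E_scale_aff hq lam hl hl', abs_of_nonneg (Law.E_aff_nonneg _ _)]
      exact Law.E_aff_le_one _ (h0 j) (h1 j)).hasSum
  have hSS : ∀ n, HasSum (fun T => gwWeight d n T * (A n T).S) (S n) := fun n =>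
    (GW.summable_of_bounded hd n _ 1 fun T => by
      rw [abs_of_nonneg (Law.S_nonneg hq _)]
      exact Law.S_le_one hq _).hasSum
  have hT : ∀ n, HasSum (fun T => gwWeight d n T * (A n T).defectEdge β lam)
      (∑' T, gwWeight d n T * (A n T).defectEdge β lam) := fun n =>
    (GW.summable_of_bounded hd n _ 1 fun T => by
      rw [Law.defectEdge, Law.E_scale_aff hq lam hl hl',
        abs_of_nonneg (sub_nonneg.2 (Law.E_aff_le_one _ hβ0 hβ1))]
      linarith [Law.E_aff_nonneg ((A n T).scale hq lam hl hl') β]).hasSum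
  have hstep : ∀ n j, e (n + 1) j = genPoisson d (e' n j) := by
    intro n j
    refine (hE (n + 1) j).unique ?_
    rw [genPoisson, ← neg_mul]
    refine (GW.hasSum_prod_exp hd n _ _ (hE' n j)).congr_fun fun T => ?_
    rw [treeLaw_succ_aff hq lam hl hl' (α j) (h0 j) (h1 j) n]
  have hS0 : ∀ n, 0 ≤ S n := fun n =>
    tsum_nonneg fun T => mul_nonneg (GW.gwWeight_nonneg hd n T) (Law.S_nonneg hq _)
  have hlim' : Tendsto (fun n => S (n + n₀)) atTop (𝓝 0) := by
    refine tendsto_zero_of_potential hΦ (D := fun n j => 1 - e (n + n₀) j) (fun n j => ?_)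
      (fun n j => ?_) hε (fun n => hS0 _) fun n => ?_
    · rw [sub_nonneg]
      refine hasSum_le (fun T => ?_) (hE _ j) (GW.hasSum_gwWeight hd _)
      exact mul_le_of_le_one_right (GW.gwWeight_nonneg hd _ T)
        (Law.E_aff_le_one _ (h0 j) (h1 j))
    · exact sub_le_self _
        (tsum_nonneg fun T => mul_nonneg (GW.gwWeight_nonneg hd _ T) (Law.E_aff_nonneg _ _))
    · simp only [show n + 1 + n₀ = n + n₀ + 1 by omega, hstep]
      exact affCertBelow_mixture hq hl hl' hd hβ0 hβ1 hΦ (by unfold genPoisson; fun_prop) h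
        (GW.gwWeight_nonneg hd _) (GW.hasSum_gwWeight hd _) (A _) (hE _) (hE' _) (hSS _) (hT _)
        (hsmall _ (by omega))
  have hlim : Tendsto S atTop (𝓝 0) := (tendsto_add_atTop_iff_nat n₀).1 hlim'
  have hadv0 : ∀ n, 0 ≤ aPoisson q lam d n := fun n =>
    tsum_nonneg fun T =>
      mul_nonneg (GW.gwWeight_nonneg hd n T) (advantage_nonneg hq lam hl hl' n T)
  have hb : ∀ δ : ℝ, 0 < δ → ∀ n, aPoisson q lam d n ≤ q * (S n / δ + δ) := by
    intro δ hδ n
    have hl2 : Summable fun T => gwWeight d n T * advantage q lam n T :=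
      GW.summable_of_bounded hd n _ 1 fun T => by
        rw [abs_of_nonneg (advantage_nonneg hq lam hl hl' n T)]
        exact advantage_le_one hq lam hl hl' n T
    have hr := (((hSS n).div_const δ).add ((GW.hasSum_gwWeight hd n).mul_right δ)).mul_left (q : ℝ)
    rw [one_mul] at hr
    refine hasSum_le (fun T => ?_) hl2.hasSum hr
    refine (mul_le_mul_of_nonneg_left (advantage_le_S hq lam hl hl' n T δ hδ)
      (GW.gwWeight_nonneg hd n T)).trans (le_of_eq ?_)
    ring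
  have h2 : (2 : ℝ) ≤ q := by exact_mod_cast hq
  rw [NonReconstructs, Metric.tendsto_atTop]
  intro η hη
  set δ := η / (4 * q) with hδ
  have hδ0 : 0 < δ := by positivity
  obtain ⟨M, hM⟩ := Metric.tendsto_atTop.1 hlim (δ * δ) (by positivity)
  refine ⟨M, fun n hn => ?_⟩
  have hSn := hM n hn
  rw [Real.dist_eq, sub_zero, abs_of_nonneg (hS0 n)] at hSn
  rw [Real.dist_eq, sub_zero, abs_of_nonneg (hadv0 n)]
  refine (hb δ hδ0 n).trans_lt ?_
  calc (q : ℝ) * (S n / δ + δ) < q * (δ + δ) := by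
        refine mul_lt_mul_of_pos_left ?_ (by linarith)
        gcongr
        rw [div_lt_iff₀ hδ0]
        exact hSn
    _ < η := by rw [hδ]; field_simp; linarith

/-- A local certificate and the transient bound at the critical mean give nonreconstruction for
three states on Poisson trees of every smaller mean. -/
theorem nonReconstructs_three_of_below (lam : ℝ) (hl : -(1 / (((3 : ℕ) : ℝ) - 1)) ≤ lam)
    (hl' : lam ≤ 1) (hl0 : lam ≠ 0) {m0 : ℝ}
    (hcert : AffCertBelow 3 lam (1 / lam ^ 2) (genPoisson (1 / lam ^ 2))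
      (fun _ => (1 / 3 : ℝ)) m0) {n₀ : ℕ}
    (hsmall : ∀ n, n₀ ≤ n → NegTrans.tauP lam hl hl' (1 / lam ^ 2) n ≤ m0 * lam ^ 2)
    {d : ℝ} (hd : 0 ≤ d) (hle : d * lam ^ 2 ≤ 1) :
    NonReconstructs (aPoisson 3 lam d) := by
  have hsq : 0 < lam ^ 2 := by positivity
  have hD : 0 ≤ 1 / lam ^ 2 := by positivity
  refine nonReconstructs_poisson_mono D4.two_le lam hl hl' hd
    ((le_div_iff₀ hsq).2 hle) ?_
  refine nonReconstructs_poisson_of_below D4.two_le lam hl hl' hD
    (fun _ => by norm_num) (by simp) hcert (n₀ := n₀) fun n hn => ?_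
  have h := hsmall n hn
  have e : NegTrans.tauP lam hl hl' (1 / lam ^ 2) n =
      ∑' T : Tree n, gwWeight (1 / lam ^ 2) n T *
        (treeLaw D4.two_le lam hl hl' n T).defectEdge (fun _ => (1 / 3 : ℝ)) lam := by
    refine tsum_congr fun T => ?_
    rw [Law.defectEdge, Law.sub_fun, Law.const]
  rw [← e]
  calc 1 / lam ^ 2 * NegTrans.tauP lam hl hl' (1 / lam ^ 2) n
      ≤ 1 / lam ^ 2 * (m0 * lam ^ 2) := mul_le_mul_of_nonneg_left h hD
    _ = m0 := by field_simp

end Vale.Agent.P154.NegLocal
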